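import Vale.Agent.P097.H917D.Step

/-! # P097 / H917D : closed orbits give regularity of the label: block [REG] -/

set_option linter.all false

open Polynomial

namespace Vale.Agent.P097.H917D

open Vale.Agent.P097.Disc

variable {K : Type*} [Field K]

/-! ### equality modulo `X ^ (r + 1)` -/

/-- the truncated power series ring -/
abbrev Tq (K : Type*) [Field K] (r : ℕ) : Type _ :=
  PowerSeries K ⧸ Ideal.span {(PowerSeries.X : PowerSeries K) ^ (r + 1)}

/-- the projection -/
noncomputable def pr (r : ℕ) : PowerSeries K →+* Tq K r := Ideal.Quotient.mk _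

theorem pr_eq_iff {r : ℕ} {f g : PowerSeries K} : pr r f = pr r g ↔ EqM r f g := by
  rw [pr, Ideal.Quotient.eq, Ideal.mem_span_singleton, PowerSeries.X_pow_dvd_iff]
  constructor
  · intro h i hi
    have := h i (Nat.lt_succ_of_le hi)
    rw [map_sub, sub_eq_zero] at this
    exact this
  · intro h i hi
    rw [map_sub, h i (Nat.lt_succ_iff.1 hi), sub_self]

/-- values at congruent power series are congruent -/
theorem pr_evP {r : ℕ} {c : K} {P P' : PowerSeries K} (hP : PowerSeries.constantCoeff P = c)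
    (hP' : PowerSeries.constantCoeff P' = c) (h : pr r P = pr r P') (q : Rc c) :
    pr r (evP c P hP q) = pr r (evP c P' hP' q) := by
  have : ((pr r).comp (evP c P hP) : Rc c →+* Tq K r) = (pr r).comp (evP c P' hP') := by
    apply rc_ext
    · intro k
      rw [RingHom.comp_apply, RingHom.comp_apply, evP, evP, lf_cs, lf_cs]
    · rw [RingHom.comp_apply, RingHom.comp_apply, evP, evP, lf_xx, lf_xx, h]
  exact DFunLike.congr_fun this q

/-! ### evaluation at a pair of power series -/

section ev

variable {s : K} {z x : PowerSeries K} (cz : PowerSeries.constantCoeff z = 0)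
  (cx : PowerSeries.constantCoeff x = s)

/-- evaluation of power series over the local ring -/
noncomputable def H : PowerSeries (Rc s) →+* PowerSeries K := sh (evP s x cx) z cz

theorem cc_H (f : PowerSeries (Rc s)) :
    PowerSeries.constantCoeff (H cz cx f) = evK s (PowerSeries.constantCoeff f) := by
  rw [← PowerSeries.coeff_zero_eq_constantCoeff_apply, H, coeff_sh, zero_add,
    Finset.sum_range_one, pow_zero, mul_one, PowerSeries.coeff_zero_eq_constantCoeff_apply, cc_evP,
    PowerSeries.coeff_zero_eq_constantCoeff_apply]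

variable {a : ℕ → K} {c : K} {t t' : Rc s}
  (hc : evK s (cs s (Ac a 0) * t + cs s (Bc a 0) * t') = c)

include hc in
theorem cc_HPz : PowerSeries.constantCoeff (H cz cx (PzR a t t')) = c := by
  rw [cc_H, ← PowerSeries.coeff_zero_eq_constantCoeff_apply, PzR, PowerSeries.coeff_mk, hc]

theorem H_rho (q : Rc c) :
    H cz cx (rho hc q) = evP c (H cz cx (PzR a t t')) (cc_HPz cz cx hc) q := by
  have : ((H cz cx).comp (rho hc) : Rc c →+* PowerSeries K) =
      evP c (H cz cx (PzR a t t')) (cc_HPz cz cx hc) := by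
    apply rc_ext
    · intro k
      rw [RingHom.comp_apply, rho, lf_cs, evP, lf_cs, RingHom.comp_apply, H, sh_C, evP, lf_cs]
    · rw [RingHom.comp_apply, rho, lf_xx, evP, lf_xx]
  exact DFunLike.congr_fun this q

theorem H_Ko (q : ℕ → Rc c) (i : ℕ) :
    H cz cx (Ko hc q i) = ∑ l ∈ Finset.range i, (evP s x cx t * z) ^ l *
      evP c (H cz cx (PzR a t t')) (cc_HPz cz cx hc) (q l) := by
  rw [Ko, map_sum]
  refine Finset.sum_congr rfl fun l _ => ?_
  rw [map_mul, map_pow, map_mul, H_rho]
  congr 3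
  · exact sh_C _ _
  · exact sh_X _

theorem pr_HPz (r : ℕ) : pr r (H cz cx (PzR a t t')) =
    pr r (evA a r z * evP s x cx t + evB a r z * evP s x cx t') := by
  rw [pr_eq_iff]
  intro n hn
  rw [H, coeff_sh, evA, evB, Finset.sum_mul, Finset.sum_mul, ← Finset.sum_add_distrib, map_sum]
  rw [← Finset.sum_subset (Finset.range_mono (Nat.succ_le_succ hn))]
  · refine Finset.sum_congr rfl fun k _ => ?_
    have e0 : ∀ w : K, evP s x cx (cs s w) = PowerSeries.C w := fun w => by rw [evP, lf_cs]
    have e : evP s x cx (PowerSeries.coeff k (PzR a t t')) * z ^ k =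
        PowerSeries.C (Ac a k) * z ^ k * evP s x cx t +
          PowerSeries.C (Bc a k) * z ^ k * evP s x cx t' := by
      rw [PzR, PowerSeries.coeff_mk]
      simp only [map_add, map_mul, e0]
      ring
    rw [e]
  · intro k _ hk
    have hk' : n < k := by
      by_contra h
      exact hk (Finset.mem_range.2 (Nat.lt_succ_iff.2 (not_lt.1 h)))
    have e : PowerSeries.C (Ac a k) * z ^ k * evP s x cx t + PowerSeries.C (Bc a k) * z ^ k *
        evP s x cx t' = (PowerSeries.C (Ac a k) * evP s x cx t +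
          PowerSeries.C (Bc a k) * evP s x cx t') * z ^ k := by ring
    rw [e]
    exact coeff_mul_pow_zero cz _ hk'

/-- congruent lines have congruent values -/
theorem pr_H_Ko {r : ℕ} {z' x' : PowerSeries K} (cz' : PowerSeries.constantCoeff z' = 0)
    (cx' : PowerSeries.constantCoeff x' = s) {u u' : Rc s}
    (hc' : evK s (cs s (Ac a 0) * u + cs s (Bc a 0) * u') = c)
    (h1 : pr r (evP s x cx t * z) = pr r (evP s x' cx' u * z'))
    (h2 : pr r (evA a r z * evP s x cx t + evB a r z * evP s x cx t') =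
      pr r (evA a r z' * evP s x' cx' u + evB a r z' * evP s x' cx' u'))
    (q : ℕ → Rc c) (i : ℕ) :
    pr r (H cz cx (Ko hc q i)) = pr r (H cz' cx' (Ko hc' q i)) := by
  rw [H_Ko, H_Ko, map_sum, map_sum]
  refine Finset.sum_congr rfl fun l _ => ?_
  rw [map_mul, map_mul, map_pow, map_pow, h1]
  congr 1
  apply pr_evP
  rw [pr_HPz, pr_HPz, h2]

/-- leading coefficient of the asymmetry on a bounce -/
theorem coeff_H_of_zero {D : PowerSeries (Rc s)} {i : ℕ}
    (hD : ∀ m < i, PowerSeries.coeff m D = 0) :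
    PowerSeries.coeff i (H cz cx D) =
      evK s (PowerSeries.coeff i D) * PowerSeries.coeff 1 z ^ i := by
  rw [H, coeff_sh, Finset.sum_range_succ, Finset.sum_eq_zero, zero_add]
  · obtain ⟨z', rfl⟩ := PowerSeries.X_dvd_iff.2 cz
    have e : evP s x cx (PowerSeries.coeff i D) * (PowerSeries.X * z') ^ i =
        PowerSeries.X ^ i * (evP s x cx (PowerSeries.coeff i D) * z' ^ i) := by
      rw [mul_pow]; ring
    rw [e, PowerSeries.coeff_X_pow_mul', if_pos le_rfl, Nat.sub_self,
      PowerSeries.coeff_zero_eq_constantCoeff_apply, map_mul, map_pow, cc_evP]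
    congr 2
    have := PowerSeries.coeff_succ_X_mul (R := K) 0 z'
    rw [zero_add] at this
    rw [this, PowerSeries.coeff_zero_eq_constantCoeff_apply]
  · intro k hk
    rw [hD k (Finset.mem_range.1 hk), map_zero, zero_mul, map_zero]

end ev

section main

variable [CharZero K]

/-- the closed orbit kills the asymmetry -/
theorem orb_zero {a : ℕ → K} {Q : ℕ → RatFunc K} (ha : a 0 = 1) (hL : IsLabel a Q) {s : K}
    (hs : s ≠ 0) {n i : ℕ} (hn : 1 ≤ n) (hi : 1 ≤ i) (hsi : s ^ (2 * i) = 1)
    (hQ : ∀ l < i, RegAt (Q l) ((s + s⁻¹) / 2)) {q : ℕ → Rc ((s + s⁻¹) / 2)}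
    (hq : ∀ l < i, q l * algebraMap K[X] (Rc ((s + s⁻¹) / 2)) (Q l).denom =
      algebraMap K[X] (Rc ((s + s⁻¹) / 2)) (Q l).num)
    (horb : Orb a s n i) : evK s (PowerSeries.coeff i (Del hs ha q i)) = 0 := by
  obtain ⟨z₀, x₀, hzx, hz1, hstep, hzn, hxn⟩ := horb
  obtain ⟨z, hz⟩ : ∃ z : ℕ → PowerSeries K, z = fun j => z₀ (min j n) := ⟨_, rfl⟩
  obtain ⟨x, hx⟩ : ∃ x : ℕ → PowerSeries K, x = fun j => x₀ (min j n) := ⟨_, rfl⟩
  have cz : ∀ j, PowerSeries.constantCoeff (z j) = 0 := fun j => by
    rw [hz, ← PowerSeries.coeff_zero_eq_constantCoeff_apply]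
    exact (hzx _ (min_le_right _ _)).1
  have cx : ∀ j, PowerSeries.constantCoeff (x j) = s := fun j => by
    rw [hx, ← PowerSeries.coeff_zero_eq_constantCoeff_apply]
    exact (hzx _ (min_le_right _ _)).2
  have hs1 : ∀ j < n, EqM i (z j * x j * x (j + 1)) (z (j + 1)) := fun j hj => by
    rw [hz, hx]
    simp only [min_eq_left hj.le, min_eq_left (Nat.succ_le_of_lt hj)]
    exact (hstep j hj).1
  have hs2 : ∀ j < n, EqM i ((evA a i (z j) * x j ^ 2 + evB a i (z j)) * x (j + 1))
        ((evA a i (z (j + 1)) + evB a i (z (j + 1)) * x (j + 1) ^ 2) * x j) := fun j hj => by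
    rw [hz, hx]
    simp only [min_eq_left hj.le, min_eq_left (Nat.succ_le_of_lt hj)]
    exact (hstep j hj).2
  have hzn' : pr i (z n) = pr i (z 0) := by
    rw [pr_eq_iff, hz]
    simpa using hzn
  have hxn' : pr i (x n) = pr i (x 0) := by
    rw [pr_eq_iff, hx]
    simpa using hxn
  have hz1' : PowerSeries.coeff 1 (z 0) = 1 := by rw [hz]; simpa using hz1
  clear hz hx hzx hz1 hstep hzn hxn
  -- inverses
  obtain ⟨w, hw⟩ : ∃ w : ℕ → PowerSeries K, w = fun j => evP s (x j) (cx j) (xi hs) := ⟨_, rfl⟩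
  have hex : ∀ j, evP s (x j) (cx j) (xx s) = x j := fun j => by rw [evP, lf_xx]
  have hew : ∀ j, evP s (x j) (cx j) (xi hs) = w j := fun j => by rw [hw]
  have hxw : ∀ j, x j * w j = 1 := fun j => by
    rw [← hex j, ← hew j, ← map_mul, xx_mul_xi, map_one]
  -- coefficients
  set co : ℕ → K := fun j => PowerSeries.coeff i (H (cz j) (cx j) (Ko (hc_out hs ha) q i)) with hco
  set ci : ℕ → K := fun j => PowerSeries.coeff i (H (cz j) (cx j) (Ko (hc_in hs ha) q i)) with hci
  have h1 : ∀ j, co j - ci j = evK s (PowerSeries.coeff i (Del hs ha q i)) *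
      PowerSeries.coeff 1 (z j) ^ i := fun j => by
    rw [hco, hci]
    simp only
    rw [← map_sub, ← map_sub]
    exact coeff_H_of_zero (cz j) (cx j) (fun m hm => coeff_Del_lt hs ha hQ hq hL hm)
  have h2 : ∀ j < n, co j = ci (j + 1) := fun j hj => by
    have e1 := (pr_eq_iff (r := i)).2 (hs1 j hj)
    have e2 := (pr_eq_iff (r := i)).2 (hs2 j hj)
    have e3 := congrArg (pr i) (hxw j)
    have e4 := congrArg (pr i) (hxw (j + 1))
    simp only [map_mul, map_add, map_pow, map_one] at e1 e2 e3 e4
    have key := pr_H_Ko (r := i) (cz j) (cx j) (hc_out hs ha) (cz (j + 1)) (cx (j + 1))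
      (hc_in hs ha) ?_ ?_ q i
    · exact (pr_eq_iff.1 key) i le_rfl
    · rw [hex, hew, map_mul, map_mul]
      linear_combination (pr i (w (j + 1))) * e1 - (pr i (z j) * pr i (x j)) * e4
    · rw [hex, hew, hex, hew, map_add, map_add, map_mul, map_mul, map_mul, map_mul]
      linear_combination (pr i (w j) * pr i (w (j + 1))) * e2 -
        (pr i (evA a i (z j)) * pr i (x j) * (pr i (x (j + 1)) * pr i (w (j + 1))) ) * e3
        - (pr i (evA a i (z j)) * pr i (x j)) * e4 - (pr i (evB a i (z j)) * pr i (w j)) * e4 +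
        (pr i (evA a i (z (j + 1))) * pr i (w (j + 1))) * e3 +
        (pr i (evB a i (z (j + 1))) * pr i (x (j + 1)) * (pr i (x (j + 1)) * pr i (w (j + 1)))) * e3
        + (pr i (evB a i (z (j + 1))) * pr i (x (j + 1))) * e4
  have h3 : ci n = ci 0 := by
    have e3 := congrArg (pr i) (hxw n)
    have e4 := congrArg (pr i) (hxw 0)
    simp only [map_mul, map_one] at e3 e4
    rw [hxn'] at e3
    have e5 : pr i (w n) = pr i (w 0) := by
      linear_combination (pr i (w 0)) * e3 - (pr i (w n)) * e4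
    have eA : pr i (evA a i (z n)) = pr i (evA a i (z 0)) := by
      rw [evA, evA, map_sum, map_sum]
      refine Finset.sum_congr rfl fun m _ => ?_
      rw [map_mul, map_mul, map_pow, map_pow, hzn']
    have eB : pr i (evB a i (z n)) = pr i (evB a i (z 0)) := by
      rw [evB, evB, map_sum, map_sum]
      refine Finset.sum_congr rfl fun m _ => ?_
      rw [map_mul, map_mul, map_pow, map_pow, hzn']
    have key := pr_H_Ko (r := i) (cz n) (cx n) (hc_in hs ha) (cz 0) (cx 0)
      (hc_in hs ha) ?_ ?_ q i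
    · exact (pr_eq_iff.1 key) i le_rfl
    · rw [hew, hew, map_mul, map_mul, e5, hzn']
    · rw [hex, hew, hex, hew, map_add, map_add, map_mul, map_mul, map_mul, map_mul, e5, hxn', eA, eB]
  -- leading coefficients of the bounces
  have h4 : ∀ j ≤ n, PowerSeries.coeff 1 (z j) = s ^ (2 * j) := by
    intro j
    induction j with
    | zero => intro _; rw [hz1']; simp
    | succ j ih =>
      intro hj
      have e1 := hs1 j hj 1 hi
      rw [← e1, mul_assoc, PowerSeries.coeff_one_mul, map_mul, cz j, cx j, cx (j + 1),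
        ih (Nat.le_of_succ_le hj)]
      ring
  -- telescoping
  have h5 : ∑ j ∈ Finset.range n, (co j - ci j) = 0 := by
    have : ∑ j ∈ Finset.range n, (co j - ci j) = ∑ j ∈ Finset.range n, (ci (j + 1) - ci j) :=
      Finset.sum_congr rfl fun j hj => by rw [h2 j (Finset.mem_range.1 hj)]
    rw [this, Finset.sum_range_sub, h3, sub_self]
  have h6 : ∑ j ∈ Finset.range n, (co j - ci j) =
      (n : K) * evK s (PowerSeries.coeff i (Del hs ha q i)) := by
    have : ∑ j ∈ Finset.range n, (co j - ci j) =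
        ∑ j ∈ Finset.range n, evK s (PowerSeries.coeff i (Del hs ha q i)) := by
      refine Finset.sum_congr rfl fun j hj => ?_
      rw [h1 j, h4 j (Finset.mem_range.1 hj).le, ← pow_mul, mul_assoc, mul_comm j i, ← mul_assoc,
        pow_mul, hsi, one_pow, mul_one]
    rw [this, Finset.sum_const, Finset.card_range, nsmul_eq_mul]
  rw [h5] at h6
  have hn0 : (n : K) ≠ 0 := Nat.cast_ne_zero.2 (by omega)
  exact (mul_eq_zero.1 h6.symm).resolve_left hn0

/-- **Block [REG]**, general field: closed orbits of every order give regularity of the label -/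
theorem regAt_of_orb {a : ℕ → K} {Q : ℕ → RatFunc K} (ha : a 0 = 1) (hL : IsLabel a Q) {s : K}
    (hs : s ≠ 0) {n : ℕ} (hn : 1 ≤ n) (horb : ∀ r, Orb a s n r) (i : ℕ) :
    RegAt (Q i) ((s + s⁻¹) / 2) := by
  induction i using Nat.strong_induction_on with
  | _ i ih =>
    rcases Nat.eq_zero_or_pos i with rfl | hi
    · rw [hL.1, RegAt, RatFunc.denom_X]
      simp
    by_cases hsi : s ^ (2 * i) = 1
    · obtain ⟨q, hq⟩ := choose_rep ih
      exact reg_res ha hL hs hi hsi ih hq (orb_zero ha hL hs hn hi hsi ih hq (horb i))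
    · exact reg_step ha hL hs hsi ih

end main

/-- **Block [REG].** -/
theorem reg : REG := by
  intro a Q ha _ hL s n hn hsn _ horb i
  refine regAt_of_orb ha hL ?_ hn horb i
  rintro rfl
  rw [zero_pow (by omega)] at hsn
  exact zero_ne_one hsn

end Vale.Agent.P097.H917D
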