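import Vale.Agent.P097.Disc.Defs

/-! # P097 / H917D : the local ring of rational functions regular at a point -/

set_option linter.all false

open Polynomial

namespace Vale.Agent.P097.H917D

open Vale.Agent.P097.Disc

section Sh

variable {R S : Type*} [CommRing R] [CommRing S]

/-- `∑ f_k N^k ↦ ∑ φ(f_k) z^k`, as a function (`z` without constant term) -/
noncomputable def shFun (φ : R →+* PowerSeries S) (z : PowerSeries S) (f : PowerSeries R) :
    PowerSeries S :=
  PowerSeries.mk fun n => ∑ k ∈ Finset.range (n + 1),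
    PowerSeries.coeff n (φ (PowerSeries.coeff k f) * z ^ k)

theorem coeff_mul_pow_zero {z : PowerSeries S} (hz : PowerSeries.constantCoeff z = 0)
    (g : PowerSeries S) {k n : ℕ} (h : n < k) : PowerSeries.coeff n (g * z ^ k) = 0 := by
  obtain ⟨z', rfl⟩ := PowerSeries.X_dvd_iff.2 hz
  rw [mul_pow, mul_left_comm, PowerSeries.coeff_X_pow_mul', if_neg (not_le.2 h)]

theorem coeff_shPoly {φ : R →+* PowerSeries S} {z : PowerSeries S}
    (hz : PowerSeries.constantCoeff z = 0) (P : R[X]) (f : PowerSeries R) (n : ℕ)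
    (h : ∀ k ≤ n, P.coeff k = PowerSeries.coeff k f) :
    PowerSeries.coeff n (P.eval₂ φ z) = PowerSeries.coeff n (shFun φ z f) := by
  have hN : P.natDegree < max (P.natDegree + 1) (n + 1) := lt_of_lt_of_le (Nat.lt_succ_self _)
    (le_max_left _ _)
  rw [Polynomial.eval₂_eq_sum_range' φ hN, map_sum, shFun, PowerSeries.coeff_mk]
  rw [← Finset.sum_subset (Finset.range_mono (le_max_right (P.natDegree + 1) (n + 1)))]
  · refine Finset.sum_congr rfl fun k hk => ?_
    rw [h k (Nat.lt_succ_iff.1 (Finset.mem_range.1 hk))]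
  · intro k _ hk
    refine coeff_mul_pow_zero hz _ ?_
    by_contra h'
    exact hk (Finset.mem_range.2 (Nat.lt_succ_iff.2 (not_lt.1 h')))

/-- `∑ f_k N^k ↦ ∑ φ(f_k) z^k`, as a ring homomorphism -/
noncomputable def sh (φ : R →+* PowerSeries S) (z : PowerSeries S)
    (hz : PowerSeries.constantCoeff z = 0) : PowerSeries R →+* PowerSeries S where
  toFun := shFun φ z
  map_one' := by
    ext n
    rw [← coeff_shPoly hz (1 : R[X]) 1 n, Polynomial.eval₂_one]
    intro k _
    rw [Polynomial.coeff_one, PowerSeries.coeff_one]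
  map_zero' := by
    ext n
    rw [← coeff_shPoly hz (0 : R[X]) 0 n, Polynomial.eval₂_zero]
    intro k _
    simp
  map_add' f g := by
    ext n
    simp only [shFun, PowerSeries.coeff_mk, map_add, add_mul, Finset.sum_add_distrib]
  map_mul' f g := by
    ext n
    rw [← coeff_shPoly hz (PowerSeries.trunc (n + 1) f * PowerSeries.trunc (n + 1) g) (f * g) n,
      Polynomial.eval₂_mul, PowerSeries.coeff_mul, PowerSeries.coeff_mul]
    · refine Finset.sum_congr rfl fun x hx => ?_
      have hx' := Finset.HasAntidiagonal.mem_antidiagonal.1 hx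
      rw [coeff_shPoly hz _ f, coeff_shPoly hz _ g]
      · intro k hk
        rw [PowerSeries.coeff_trunc, if_pos (by omega)]
      · intro k hk
        rw [PowerSeries.coeff_trunc, if_pos (by omega)]
    · intro k hk
      rw [Polynomial.coeff_mul, PowerSeries.coeff_mul]
      refine Finset.sum_congr rfl fun x hx => ?_
      have hx' := Finset.HasAntidiagonal.mem_antidiagonal.1 hx
      rw [PowerSeries.coeff_trunc, PowerSeries.coeff_trunc, if_pos (by omega), if_pos (by omega)]

variable {φ : R →+* PowerSeries S} {z : PowerSeries S} (hz : PowerSeries.constantCoeff z = 0)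

theorem coeff_sh (f : PowerSeries R) (n : ℕ) :
    PowerSeries.coeff n (sh φ z hz f) = ∑ k ∈ Finset.range (n + 1),
      PowerSeries.coeff n (φ (PowerSeries.coeff k f) * z ^ k) := by
  show PowerSeries.coeff n (shFun φ z f) = _
  rw [shFun, PowerSeries.coeff_mk]

theorem sh_coe (P : R[X]) : sh φ z hz (P : PowerSeries R) = P.eval₂ φ z := by
  ext n
  show PowerSeries.coeff n (shFun φ z _) = _
  rw [← coeff_shPoly hz P _ n]
  intro k _
  rw [Polynomial.coeff_coe]

theorem sh_C (r : R) : sh φ z hz (PowerSeries.C r) = φ r := by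
  rw [← Polynomial.coe_C, sh_coe, Polynomial.eval₂_C]

theorem sh_X : sh φ z hz PowerSeries.X = z := by
  rw [← Polynomial.coe_X, sh_coe, Polynomial.eval₂_X]

end Sh

variable {K : Type*} [Field K]

/-- polynomials which do not vanish at `c` -/
def Mc (c : K) : Submonoid K[X] where
  carrier := {f | f.eval c ≠ 0}
  one_mem' := by simp
  mul_mem' := fun {f g} hf hg => by
    simp only [Set.mem_setOf_eq, eval_mul]; exact mul_ne_zero hf hg

/-- the local ring at `c` -/
abbrev Rc (c : K) : Type _ := Localization (Mc c)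

/-- constants -/
noncomputable def cs (c : K) : K →+* Rc c := (algebraMap K[X] (Rc c)).comp Polynomial.C

/-- the coordinate -/
noncomputable def xx (c : K) : Rc c := algebraMap K[X] (Rc c) Polynomial.X

section lf

variable {S : Type*} [CommRing S]

/-- homomorphisms out of the local ring -/
noncomputable def lf (c : K) (φ : K →+* S) (P : S)
    (h : ∀ f : K[X], f.eval c ≠ 0 → IsUnit (f.eval₂ φ P)) : Rc c →+* S :=
  IsLocalization.lift (M := Mc c) (g := Polynomial.eval₂RingHom φ P) (fun f => h f.1 f.2)

variable {c : K} {φ : K →+* S} {P : S} (h : ∀ f : K[X], f.eval c ≠ 0 → IsUnit (f.eval₂ φ P))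

theorem lf_alg (f : K[X]) : lf c φ P h (algebraMap K[X] (Rc c) f) = f.eval₂ φ P :=
  IsLocalization.lift_eq _ _

theorem lf_cs (k : K) : lf c φ P h (cs c k) = φ k := by
  rw [cs, RingHom.comp_apply, lf_alg, Polynomial.eval₂_C]

theorem lf_xx : lf c φ P h (xx c) = P := by
  rw [xx, lf_alg, Polynomial.eval₂_X]

theorem rc_ext {f g : Rc c →+* S} (hC : ∀ k, f (cs c k) = g (cs c k)) (hX : f (xx c) = g (xx c)) :
    f = g := by
  apply IsLocalization.ringHom_ext (Mc c)
  apply Polynomial.ringHom_ext
  · intro k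
    exact hC k
  · exact hX

end lf

/-- the value at `c` -/
noncomputable def evK (c : K) : Rc c →+* K :=
  lf c (RingHom.id K) c (fun f hf => by
    rw [isUnit_iff_ne_zero, Polynomial.eval₂_id]; exact hf)

theorem evK_alg (c : K) (f : K[X]) : evK c (algebraMap K[X] (Rc c) f) = f.eval c := by
  rw [evK, lf_alg, Polynomial.eval₂_id]

theorem evK_cs (c k : K) : evK c (cs c k) = k := by rw [evK, lf_cs, RingHom.id_apply]

theorem evK_xx (c : K) : evK c (xx c) = c := by rw [evK, lf_xx]

theorem isUnit_of_evK {c : K} {x : Rc c} (h : evK c x ≠ 0) : IsUnit x := by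
  obtain ⟨⟨f, g⟩, hx⟩ := IsLocalization.surj (Mc c) x
  simp only at hx
  have h1 : evK c x * (g : K[X]).eval c = f.eval c := by
    rw [← evK_alg, ← evK_alg, ← map_mul, hx]
  have h2 : f.eval c ≠ 0 := by
    rw [← h1]
    exact mul_ne_zero h g.2
  have h3 : IsUnit (algebraMap K[X] (Rc c) f) := IsLocalization.map_units (Rc c) (⟨f, h2⟩ : Mc c)
  rw [← hx] at h3
  exact isUnit_of_mul_isUnit_left h3

theorem exists_of_evK_zero {c : K} {x : Rc c} (h : evK c x = 0) :
    ∃ y : Rc c, x = (xx c - cs c c) * y := by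
  obtain ⟨⟨f, g⟩, hx⟩ := IsLocalization.surj (Mc c) x
  simp only at hx
  have h1 : f.eval c = 0 := by
    rw [← evK_alg, ← hx, map_mul, h, zero_mul]
  obtain ⟨f', hf'⟩ := Polynomial.dvd_iff_isRoot.2 h1
  obtain ⟨u, hu⟩ := IsLocalization.map_units (Rc c) g
  refine ⟨algebraMap K[X] (Rc c) f' * ↑u⁻¹, ?_⟩
  have h2 : x = algebraMap K[X] (Rc c) f * ↑u⁻¹ := by
    rw [← hx, ← hu, mul_assoc, Units.mul_inv, mul_one]
  rw [h2, hf', map_mul, map_sub, xx, cs, RingHom.comp_apply, mul_assoc]

/-- the value at a power series with constant term `c` -/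
noncomputable def evP (c : K) (P : PowerSeries K) (hP : PowerSeries.constantCoeff P = c) :
    Rc c →+* PowerSeries K :=
  lf c (PowerSeries.C) P (fun f hf => by
    rw [PowerSeries.isUnit_iff_constantCoeff, isUnit_iff_ne_zero, Polynomial.hom_eval₂, hP]
    have : (PowerSeries.constantCoeff.comp PowerSeries.C : K →+* K) = RingHom.id K := by
      ext x; simp
    rw [this, Polynomial.eval₂_id]
    exact hf)

theorem cc_evP {c : K} {P : PowerSeries K} (hP : PowerSeries.constantCoeff P = c) (x : Rc c) :
    PowerSeries.constantCoeff (evP c P hP x) = evK c x := by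
  have : (PowerSeries.constantCoeff.comp (evP c P hP) : Rc c →+* K) = evK c := by
    apply rc_ext
    · intro k
      rw [RingHom.comp_apply, evP, lf_cs, evK_cs, PowerSeries.constantCoeff_C]
    · rw [RingHom.comp_apply, evP, lf_xx, evK_xx, hP]
  exact DFunLike.congr_fun this x

/-- the embedding into rational functions -/
noncomputable def emb (c : K) : Rc c →+* RatFunc K :=
  lf c RatFunc.C RatFunc.X (fun f hf => by
    have h1 : f.eval₂ (RatFunc.C : K →+* RatFunc K) RatFunc.X = algebraMap K[X] (RatFunc K) f := by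
      have : (Polynomial.eval₂RingHom (RatFunc.C : K →+* RatFunc K) RatFunc.X) =
          algebraMap K[X] (RatFunc K) := by
        apply Polynomial.ringHom_ext
        · intro a; simp
        · simp
      exact DFunLike.congr_fun this f
    rw [h1, isUnit_iff_ne_zero]
    apply RatFunc.algebraMap_ne_zero
    rintro rfl
    exact hf (by simp))

theorem emb_alg (c : K) (f : K[X]) :
    emb c (algebraMap K[X] (Rc c) f) = algebraMap K[X] (RatFunc K) f := by
  rw [emb, lf_alg]
  have : (Polynomial.eval₂RingHom (RatFunc.C : K →+* RatFunc K) RatFunc.X) =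
      algebraMap K[X] (RatFunc K) := by
    apply Polynomial.ringHom_ext
    · intro a; simp
    · simp
  exact DFunLike.congr_fun this f

theorem emb_cs (c k : K) : emb c (cs c k) = RatFunc.C k := by rw [emb, lf_cs]

theorem emb_xx (c : K) : emb c (xx c) = RatFunc.X := by rw [emb, lf_xx]

theorem emb_injective (c : K) : Function.Injective (emb c) := by
  rw [injective_iff_map_eq_zero]
  intro x hx
  obtain ⟨⟨f, g⟩, h⟩ := IsLocalization.surj (Mc c) x
  simp only at h
  have h1 : algebraMap K[X] (RatFunc K) f = 0 := by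
    rw [← emb_alg c, ← h, map_mul, hx, zero_mul]
  have h2 : f = 0 := by
    by_contra h0
    exact RatFunc.algebraMap_ne_zero h0 h1
  rw [h2, map_zero] at h
  exact (IsLocalization.map_units (Rc c) g).mul_left_eq_zero.1 h

/-- a regular rational function is in the image -/
theorem exists_rep {c : K} {r : RatFunc K} (h : RegAt r c) :
    ∃ q : Rc c, emb c q = r ∧ q * algebraMap K[X] (Rc c) r.denom = algebraMap K[X] (Rc c) r.num := by
  refine ⟨IsLocalization.mk' (Rc c) r.num (⟨r.denom, h⟩ : Mc c), ?_, IsLocalization.mk'_spec _ _ _⟩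
  have h1 := IsLocalization.mk'_spec (Rc c) r.num (⟨r.denom, h⟩ : Mc c)
  have h2 := congrArg (emb c) h1
  rw [map_mul, emb_alg, emb_alg] at h2
  have h3 : algebraMap K[X] (RatFunc K) r.denom ≠ 0 := RatFunc.algebraMap_ne_zero r.denom_ne_zero
  rw [← mul_left_inj' h3, h2]
  exact (div_eq_iff h3).1 (RatFunc.num_div_denom r)

end Vale.Agent.P097.H917D
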