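import Vale.Agent.P097.H917D.Loc

/-! # P097 / H917D : the pencil over the local ring, regularity of the label off resonances -/

set_option linter.all false

open Polynomial

namespace Vale.Agent.P097.H917D

open Vale.Agent.P097.Disc

variable {K : Type*} [Field K]

/-- the pencil over the local ring at `s` -/
noncomputable def PzR (a : ℕ → K) {s : K} (t t' : Rc s) : PowerSeries (Rc s) :=
  PowerSeries.mk fun n => cs s (Ac a n) * t + cs s (Bc a n) * t'

section rho

variable {a : ℕ → K} {s c : K} {t t' : Rc s}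

theorem unit_Pz (hc : evK s (cs s (Ac a 0) * t + cs s (Bc a 0) * t') = c) (f : K[X])
    (hf : f.eval c ≠ 0) :
    IsUnit (f.eval₂ ((PowerSeries.C : Rc s →+* PowerSeries (Rc s)).comp (cs s)) (PzR a t t')) := by
  rw [PowerSeries.isUnit_iff_constantCoeff, Polynomial.hom_eval₂]
  apply isUnit_of_evK
  rw [Polynomial.hom_eval₂]
  have h1 : (evK s).comp ((PowerSeries.constantCoeff (R := Rc s)).comp
      ((PowerSeries.C : Rc s →+* PowerSeries (Rc s)).comp (cs s))) = RingHom.id K := by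
    ext k
    simp [evK_cs]
  have h2 : evK s (PowerSeries.constantCoeff (PzR a t t')) = c := by
    rw [← PowerSeries.coeff_zero_eq_constantCoeff_apply, PzR, PowerSeries.coeff_mk, hc]
  rw [h1, h2, Polynomial.eval₂_id]
  exact hf

/-- functions regular at `c`, evaluated on the pencil -/
noncomputable def rho (hc : evK s (cs s (Ac a 0) * t + cs s (Bc a 0) * t') = c) :
    Rc c →+* PowerSeries (Rc s) :=
  lf c ((PowerSeries.C : Rc s →+* PowerSeries (Rc s)).comp (cs s)) (PzR a t t') (unit_Pz hc)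

variable (hc : evK s (cs s (Ac a 0) * t + cs s (Bc a 0) * t') = c)

theorem map_Pz {x : RatFunc K} (ht : emb s t = x) (ht' : emb s t' = x⁻¹) :
    PowerSeries.map (emb s) (PzR a t t') = pz a x := by
  ext n
  rw [PowerSeries.coeff_map, PzR, PowerSeries.coeff_mk, pz, PowerSeries.coeff_mk, map_add, map_mul,
    map_mul, emb_cs, emb_cs, ht, ht', RatFunc.algebraMap_eq_C]

theorem map_rho_alg {x : RatFunc K} (ht : emb s t = x) (ht' : emb s t' = x⁻¹) (f : K[X]) :
    PowerSeries.map (emb s) (rho hc (algebraMap K[X] (Rc c) f)) = Polynomial.aeval (pz a x) f := by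
  rw [rho, lf_alg, Polynomial.hom_eval₂, map_Pz ht ht', Polynomial.aeval_def]
  congr 1
  ext k
  rw [RingHom.comp_apply, RingHom.comp_apply, PowerSeries.map_C, emb_cs,
    PowerSeries.algebraMap_apply, RatFunc.algebraMap_eq_C]

theorem map_rho {x : RatFunc K} (ht : emb s t = x) (ht' : emb s t' = x⁻¹) {r : RatFunc K}
    (hr : RegAt r c) {q : Rc c} (hq : q * algebraMap K[X] (Rc c) r.denom =
      algebraMap K[X] (Rc c) r.num) :
    PowerSeries.map (emb s) (rho hc q) = evR r (pz a x) := by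
  have h1 := congrArg (fun y => PowerSeries.map (emb s) (rho hc y)) hq
  simp only [map_mul] at h1
  rw [map_rho_alg hc ht ht', map_rho_alg hc ht ht'] at h1
  have h2 : IsUnit (algebraMap K[X] (Rc c) r.denom) :=
    IsLocalization.map_units (Rc c) (⟨r.denom, hr⟩ : Mc c)
  have h3 : IsUnit (Polynomial.aeval (pz a x) r.denom) := by
    rw [← map_rho_alg hc ht ht']
    exact (h2.map (rho hc)).map (PowerSeries.map (emb s))
  have h4 : PowerSeries.constantCoeff (Polynomial.aeval (pz a x) r.denom) ≠ 0 := by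
    rw [PowerSeries.isUnit_iff_constantCoeff] at h3
    exact h3.ne_zero
  rw [evR, ← h1, mul_assoc, PowerSeries.mul_inv_cancel _ h4, mul_one]

/-- the truncated label on the pencil -/
noncomputable def Ko (q : ℕ → Rc c) (i : ℕ) : PowerSeries (Rc s) :=
  ∑ l ∈ Finset.range i, (PowerSeries.C t * PowerSeries.X) ^ l * rho hc (q l)

theorem coeff_Ko {x : RatFunc K} (ht : emb s t = x) (ht' : emb s t' = x⁻¹) {Q : ℕ → RatFunc K}
    {q : ℕ → Rc c} {i : ℕ} (hQ : ∀ l < i, RegAt (Q l) c)
    (hq : ∀ l < i, q l * algebraMap K[X] (Rc c) (Q l).denom = algebraMap K[X] (Rc c) (Q l).num)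
    (m : ℕ) :
    emb s (PowerSeries.coeff m (Ko hc q i)) = ∑ l ∈ Finset.range i,
      if l ≤ m then x ^ l * PowerSeries.coeff (m - l) (evR (Q l) (pz a x)) else 0 := by
  rw [Ko, map_sum, map_sum]
  refine Finset.sum_congr rfl fun l hl => ?_
  have hl' := Finset.mem_range.1 hl
  rw [← map_rho hc ht ht' (hQ l hl') (hq l hl'), mul_pow, ← map_pow, mul_assoc,
    PowerSeries.coeff_C_mul, PowerSeries.coeff_X_pow_mul']
  split_ifs with h
  · rw [map_mul, map_pow, ht, PowerSeries.coeff_map]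
  · rw [mul_zero, map_zero]

theorem coeff_Ko_lt {x : RatFunc K} (ht : emb s t = x) (ht' : emb s t' = x⁻¹) {Q : ℕ → RatFunc K}
    {q : ℕ → Rc c} {i : ℕ} (hQ : ∀ l < i, RegAt (Q l) c)
    (hq : ∀ l < i, q l * algebraMap K[X] (Rc c) (Q l).denom = algebraMap K[X] (Rc c) (Q l).num)
    {m : ℕ} (hm : m < i) :
    emb s (PowerSeries.coeff m (Ko hc q i)) = Wn a Q x m := by
  rw [coeff_Ko hc ht ht' hQ hq, Wn, ← Finset.sum_filter]
  refine Finset.sum_congr ?_ fun l _ => rfl
  ext l
  simp only [Finset.mem_filter, Finset.mem_range]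
  omega

theorem coeff_Ko_eq {x : RatFunc K} (ht : emb s t = x) (ht' : emb s t' = x⁻¹) {Q : ℕ → RatFunc K}
    {q : ℕ → Rc c} {i : ℕ} (hQ : ∀ l < i, RegAt (Q l) c)
    (hq : ∀ l < i, q l * algebraMap K[X] (Rc c) (Q l).denom = algebraMap K[X] (Rc c) (Q l).num) :
    emb s (PowerSeries.coeff i (Ko hc q i)) + x ^ i * PowerSeries.coeff 0 (evR (Q i) (pz a x)) =
      Wn a Q x i := by
  rw [coeff_Ko hc ht ht' hQ hq, Wn, Finset.sum_range_succ, Nat.sub_self, ← Finset.sum_filter]
  congr 1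
  refine Finset.sum_congr ?_ fun l _ => rfl
  ext l
  simp only [Finset.mem_filter, Finset.mem_range]
  omega

end rho

/-! ### the two pencils at `s` -/

section two

variable {s : K} (hs : s ≠ 0)

include hs in
theorem isUnit_xx : IsUnit (xx s) := isUnit_of_evK (by rw [evK_xx]; exact hs)

/-- `ξ⁻¹` in the local ring -/
noncomputable def xi : Rc s := ((isUnit_xx hs).unit⁻¹ : (Rc s)ˣ)

theorem xx_mul_xi : xx s * xi hs = 1 := by
  rw [xi]
  exact (isUnit_xx hs).mul_val_inv

theorem evK_xi : evK s (xi hs) = s⁻¹ := by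
  have h := congrArg (evK s) (xx_mul_xi hs)
  rw [map_mul, evK_xx, map_one] at h
  exact eq_inv_of_mul_eq_one_right h

theorem emb_xi : emb s (xi hs) = (RatFunc.X : RatFunc K)⁻¹ := by
  have h := congrArg (emb s) (xx_mul_xi hs)
  rw [map_mul, emb_xx, map_one] at h
  exact eq_inv_of_mul_eq_one_right h

theorem hc_out {a : ℕ → K} (ha : a 0 = 1) :
    evK s (cs s (Ac a 0) * xx s + cs s (Bc a 0) * xi hs) = (s + s⁻¹) / 2 := by
  rw [map_add, map_mul, map_mul, evK_cs, evK_cs, evK_xx, evK_xi, Ac, Bc, ha]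
  simp only [Nat.cast_zero, add_zero, sub_zero, one_mul]
  ring

theorem hc_in {a : ℕ → K} (ha : a 0 = 1) :
    evK s (cs s (Ac a 0) * xi hs + cs s (Bc a 0) * xx s) = (s + s⁻¹) / 2 := by
  rw [map_add, map_mul, map_mul, evK_cs, evK_cs, evK_xx, evK_xi, Ac, Bc, ha]
  simp only [Nat.cast_zero, add_zero, sub_zero, one_mul]
  ring

/-- coefficient `0` of `evR` -/
theorem coeff_zero_evR {a : ℕ → K} (r : RatFunc K) (x : RatFunc K) :
    PowerSeries.coeff 0 (evR r (pz a x)) =
      r.num.eval₂ RatFunc.C (RatFunc.C (Ac a 0) * x + RatFunc.C (Bc a 0) * x⁻¹) *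
        (r.denom.eval₂ RatFunc.C (RatFunc.C (Ac a 0) * x + RatFunc.C (Bc a 0) * x⁻¹))⁻¹ := by
  have h1 : ∀ f : K[X], PowerSeries.constantCoeff (Polynomial.aeval (pz a x) f) =
      f.eval₂ RatFunc.C (RatFunc.C (Ac a 0) * x + RatFunc.C (Bc a 0) * x⁻¹) := by
    intro f
    rw [Polynomial.aeval_def, Polynomial.hom_eval₂]
    congr 1
  rw [PowerSeries.coeff_zero_eq_constantCoeff_apply, evR, map_mul, PowerSeries.constantCoeff_inv,
    h1, h1]

variable [CharZero K]

/-- `p₀` in the local ring -/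
noncomputable def p0R : Rc s := cs s (1 / 2) * (xx s + xi hs)

theorem evK_p0R : evK s (p0R hs) = (s + s⁻¹) / 2 := by
  rw [p0R, map_mul, map_add, evK_cs, evK_xx, evK_xi]
  ring

theorem emb_p0R : emb s (p0R hs) = RatFunc.C (1 / 2) * (RatFunc.X + RatFunc.X⁻¹) := by
  rw [p0R, map_mul, map_add, emb_cs, emb_xx, emb_xi]

/-- if the value on the pencil is regular then the function is regular -/
theorem regAt_of (r : RatFunc K) {g : Rc s}
    (h : r.num.eval₂ RatFunc.C (emb s (p0R hs)) = emb s g * r.denom.eval₂ RatFunc.C (emb s (p0R hs))) :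
    RegAt r ((s + s⁻¹) / 2) := by
  intro hd
  have h1 : ∀ f : K[X], f.eval₂ RatFunc.C (emb s (p0R hs)) = emb s (f.eval₂ (cs s) (p0R hs)) := by
    intro f
    rw [Polynomial.hom_eval₂]
    congr 1
    ext k
    rw [RingHom.comp_apply, emb_cs]
  have h2 : ∀ f : K[X], evK s (f.eval₂ (cs s) (p0R hs)) = f.eval ((s + s⁻¹) / 2) := by
    intro f
    rw [Polynomial.hom_eval₂, evK_p0R]
    have : (evK s).comp (cs s) = RingHom.id K := by ext k; simp [evK_cs]
    rw [this, Polynomial.eval₂_id]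
  rw [h1, h1, ← map_mul] at h
  have h3 := congrArg (evK s) (emb_injective s h)
  rw [map_mul, h2, h2, hd, mul_zero] at h3
  obtain ⟨u, v, huv⟩ := RatFunc.isCoprime_num_denom r
  have h4 := congrArg (Polynomial.eval ((s + s⁻¹) / 2)) huv
  rw [Polynomial.eval_add, Polynomial.eval_mul, Polynomial.eval_mul, h3, hd, mul_zero, mul_zero,
    Polynomial.eval_one, add_zero] at h4
  exact zero_ne_one h4

end two

end Vale.Agent.P097.H917D
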