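import Vale.Agent.P097.H917D.Pen
import Vale.Agent.P097.H896.D3.Sub

/-! # P097 / H917D : one step of the recursion of the label at a point -/

set_option linter.all false

open Polynomial

namespace Vale.Agent.P097.H917D

open Vale.Agent.P097.Disc

variable {K : Type*} [Field K] [CharZero K]

section

variable {a : ℕ → K} {s : K} (hs : s ≠ 0) (ha : a 0 = 1)

/-- the asymmetry of the truncated label on the pencil -/
noncomputable def Del (q : ℕ → Rc ((s + s⁻¹) / 2)) (i : ℕ) : PowerSeries (Rc s) :=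
  Ko (hc_out hs ha) q i - Ko (hc_in hs ha) q i

theorem emb_xi' : emb s (xi hs) = (RatFunc.X : RatFunc K)⁻¹ := emb_xi hs

variable {Q : ℕ → RatFunc K} {q : ℕ → Rc ((s + s⁻¹) / 2)} {i : ℕ}
  (hQ : ∀ l < i, RegAt (Q l) ((s + s⁻¹) / 2))
  (hq : ∀ l < i, q l * algebraMap K[X] (Rc ((s + s⁻¹) / 2)) (Q l).denom =
    algebraMap K[X] (Rc ((s + s⁻¹) / 2)) (Q l).num)
  (hL : IsLabel a Q)

include hQ hq hL in
theorem coeff_Del_lt {m : ℕ} (hm : m < i) : PowerSeries.coeff m (Del hs ha q i) = 0 := by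
  apply emb_injective s
  rw [Del, map_sub, map_sub, map_zero,
    coeff_Ko_lt (hc_out hs ha) (emb_xx s) (emb_xi hs) hQ hq hm,
    coeff_Ko_lt (hc_in hs ha) (emb_xi hs) (by rw [emb_xx, inv_inv]) hQ hq hm, hL.2 m, sub_self]

include hQ hq hL in
/-- the relation for `Q i` on the pencil -/
theorem rel_Del :
    emb s (PowerSeries.coeff i (Del hs ha q i)) +
      emb s (xx s ^ i - xi hs ^ i) * ((Q i).num.eval₂ RatFunc.C (emb s (p0R hs)) *
        ((Q i).denom.eval₂ RatFunc.C (emb s (p0R hs)))⁻¹) = 0 := by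
  have h1 := coeff_Ko_eq (hc_out hs ha) (emb_xx s) (emb_xi hs) hQ hq
  have h2 := coeff_Ko_eq (hc_in hs ha) (emb_xi hs) (by rw [emb_xx, inv_inv]) hQ hq
  have e1 : (RatFunc.C (Ac a 0) * RatFunc.X + RatFunc.C (Bc a 0) * RatFunc.X⁻¹ : RatFunc K) =
      emb s (p0R hs) := by
    rw [emb_p0R, Ac, Bc, ha]
    simp only [Nat.cast_zero, add_zero, sub_zero, one_mul]
    ring
  have e2 : (RatFunc.C (Ac a 0) * RatFunc.X⁻¹ + RatFunc.C (Bc a 0) * (RatFunc.X⁻¹)⁻¹ : RatFunc K) =
      emb s (p0R hs) := by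
    rw [emb_p0R, Ac, Bc, ha, inv_inv]
    simp only [Nat.cast_zero, add_zero, sub_zero, one_mul]
    ring
  rw [coeff_zero_evR, e1] at h1
  rw [coeff_zero_evR, e2] at h2
  have h3 := hL.2 i
  rw [← h1, ← h2] at h3
  rw [Del, map_sub, map_sub, map_sub, map_pow, map_pow, emb_xx, emb_xi]
  linear_combination h3

include hQ hq hL in
/-- regularity from divisibility in the local ring -/
theorem reg_of_dvd {y : Rc s}
    (hy : PowerSeries.coeff i (Del hs ha q i) + (xx s ^ i - xi hs ^ i) * y = 0)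
    (hne : xx s ^ i - xi hs ^ i ≠ 0) : RegAt (Q i) ((s + s⁻¹) / 2) := by
  have h1 := rel_Del hs ha hQ hq hL
  have h2 := congrArg (emb s) hy
  rw [map_add, map_mul, map_zero] at h2
  have h3 : emb s (xx s ^ i - xi hs ^ i) ≠ 0 := by
    intro h
    apply hne
    apply emb_injective s
    rw [h, map_zero]
  have h4 : (Q i).num.eval₂ RatFunc.C (emb s (p0R hs)) *
        ((Q i).denom.eval₂ RatFunc.C (emb s (p0R hs)))⁻¹ = emb s y := by
    apply mul_left_cancel₀ h3
    linear_combination h1 - h2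
  have hd : (Q i).denom.eval₂ RatFunc.C (emb s (p0R hs)) ≠ 0 := by
    rw [emb_p0R]
    exact (H896.D3.Ex.p0.eval₂ (Q i).denom_ne_zero).1
  refine regAt_of hs (Q i) (g := y) ?_
  rw [← h4, mul_assoc, inv_mul_cancel₀ hd, mul_one]

end

theorem choose_rep {c : K} {Q : ℕ → RatFunc K} {i : ℕ} (hQ : ∀ l < i, RegAt (Q l) c) :
    ∃ q : ℕ → Rc c, ∀ l < i, q l * algebraMap K[X] (Rc c) (Q l).denom =
      algebraMap K[X] (Rc c) (Q l).num := by
  have h : ∀ l, ∃ q : Rc c, l < i → q * algebraMap K[X] (Rc c) (Q l).denom =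
      algebraMap K[X] (Rc c) (Q l).num := by
    intro l
    by_cases hl : l < i
    · obtain ⟨q, _, hq⟩ := exists_rep (hQ l hl)
      exact ⟨q, fun _ => hq⟩
    · exact ⟨0, fun h => absurd h hl⟩
  choose q hq using h
  exact ⟨q, hq⟩

/-- off the resonances the label stays regular -/
theorem reg_step {a : ℕ → K} {Q : ℕ → RatFunc K} (ha : a 0 = 1) (hL : IsLabel a Q) {x : K}
    (hx : x ≠ 0) {i : ℕ} (hxi : x ^ (2 * i) ≠ 1)
    (hQ : ∀ l < i, RegAt (Q l) ((x + x⁻¹) / 2)) : RegAt (Q i) ((x + x⁻¹) / 2) := by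
  obtain ⟨q, hq⟩ := choose_rep hQ
  have h1 : evK x (xx x ^ i - xi hx ^ i) ≠ 0 := by
    rw [map_sub, map_pow, map_pow, evK_xx, evK_xi]
    intro h
    apply hxi
    have hxi0 : x ^ i ≠ 0 := pow_ne_zero _ hx
    rw [two_mul, pow_add]
    have h2 : x ^ i = (x⁻¹) ^ i := sub_eq_zero.1 h
    nth_rw 2 [h2]
    rw [inv_pow, mul_inv_cancel₀ hxi0]
  obtain ⟨u, hu⟩ := isUnit_of_evK h1
  refine reg_of_dvd hx ha hQ hq hL (y := -(PowerSeries.coeff i (Del hx ha q i)) * ↑u⁻¹) ?_ ?_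
  · rw [← hu]
    have h2 : (u : Rc x) * ↑u⁻¹ = 1 := Units.mul_inv u
    linear_combination (-(PowerSeries.coeff i (Del hx ha q i))) * h2
  · intro h
    rw [h, map_zero] at h1
    exact h1 rfl

/-- at a resonance the label stays regular if the asymmetry vanishes at the point -/
theorem reg_res {a : ℕ → K} {Q : ℕ → RatFunc K} (ha : a 0 = 1) (hL : IsLabel a Q) {x : K}
    (hx : x ≠ 0) {i : ℕ} (hi : 1 ≤ i) (hxi : x ^ (2 * i) = 1)
    (hQ : ∀ l < i, RegAt (Q l) ((x + x⁻¹) / 2)) {q : ℕ → Rc ((x + x⁻¹) / 2)}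
    (hq : ∀ l < i, q l * algebraMap K[X] (Rc ((x + x⁻¹) / 2)) (Q l).denom =
      algebraMap K[X] (Rc ((x + x⁻¹) / 2)) (Q l).num)
    (h0 : evK x (PowerSeries.coeff i (Del hx ha q i)) = 0) : RegAt (Q i) ((x + x⁻¹) / 2) := by
  obtain ⟨δ, hδ⟩ := exists_of_evK_zero h0
  obtain ⟨w, hw⟩ : (X - C x : K[X]) ∣ (X ^ (2 * i) - 1 : K[X]) := by
    rw [Polynomial.dvd_iff_isRoot]
    simp [hxi]
  have hw1 : w.eval x ≠ 0 := by
    have h1 := congrArg (fun f => (Polynomial.derivative f).eval x) hw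
    simp only [Polynomial.derivative_sub, Polynomial.derivative_X_pow, Polynomial.derivative_one,
      sub_zero, Polynomial.derivative_mul, Polynomial.derivative_X, Polynomial.derivative_C,
      Polynomial.eval_one, Polynomial.eval_zero, one_mul,
      Polynomial.eval_add, Polynomial.eval_mul, Polynomial.eval_sub, Polynomial.eval_X,
      Polynomial.eval_C, sub_self, zero_mul, add_zero, Polynomial.eval_pow] at h1
    rw [← h1]
    refine mul_ne_zero ?_ (pow_ne_zero _ hx)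
    have : ((2 * i : ℕ) : K) ≠ 0 := Nat.cast_ne_zero.2 (by omega)
    simpa using this
  have h2 : xx x ^ i - xi hx ^ i = (xx x - cs x x) * (xi hx ^ i * algebraMap K[X] (Rc x) w) := by
    have h3 := congrArg (algebraMap K[X] (Rc x)) hw
    rw [map_mul, map_sub, map_sub, map_pow, map_one] at h3
    have h4 : xx x ^ i * xi hx ^ i = 1 := by rw [← mul_pow, xx_mul_xi, one_pow]
    have h5 : (xx x ^ (2 * i) - 1) = (xx x - cs x x) * algebraMap K[X] (Rc x) w := h3
    rw [two_mul, pow_add] at h5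
    linear_combination (xi hx ^ i) * h5 - (xx x ^ i) * h4
  have h3 : evK x (xi hx ^ i * algebraMap K[X] (Rc x) w) ≠ 0 := by
    rw [map_mul, map_pow, evK_xi, evK_alg]
    exact mul_ne_zero (pow_ne_zero _ (inv_ne_zero hx)) hw1
  obtain ⟨u, hu⟩ := isUnit_of_evK h3
  refine reg_of_dvd hx ha hQ hq hL (y := -δ * ↑u⁻¹) ?_ ?_
  · rw [h2, hδ, ← hu]
    have h4 : (u : Rc x) * ↑u⁻¹ = 1 := Units.mul_inv u
    linear_combination (-(xx x - cs x x) * δ) * h4
  · intro h
    have h4 : xx x ^ i * xi hx ^ i = 1 := by rw [← mul_pow, xx_mul_xi, one_pow]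
    have h5 : xx x ^ (2 * i) = 1 := by
      rw [two_mul, pow_add]
      linear_combination (xx x ^ i) * h + h4
    have h6 : algebraMap K[X] (RatFunc K) (X ^ (2 * i) - 1) = 0 := by
      rw [← emb_alg x, map_sub, map_pow, map_one]
      have : emb x (xx x ^ (2 * i) - 1) = 0 := by rw [h5, sub_self, map_zero]
      exact this
    have h7 : (X ^ (2 * i) - 1 : K[X]) ≠ 0 := by
      have := Polynomial.X_pow_sub_C_ne_zero (R := K) (n := 2 * i) (by omega) 1
      simpa using this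
    exact RatFunc.algebraMap_ne_zero h7 h6

end Vale.Agent.P097.H917D
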